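import Vale.Agent.P054.Values

namespace Vale.Agent.Results.P054.GridImages

open Finset Matrix Vale.Agent.P054
open scoped RealInnerProductSpace

theorem result (d : ℕ) (hd : 3 ≤ d) (δ : ℝ) (hδ : 0 < δ) : ∃ c : ℝ, 0 < c ∧
    ∀ (N : ℕ) (T : EuclideanSpace ℝ (Fin d) ≃ₗ[ℝ] EuclideanSpace ℝ (Fin d))
      (z : EuclideanSpace ℝ (Fin d)) (P : Finset (EuclideanSpace ℝ (Fin d))),
      (∀ p ∈ P, ∃ x : Fin d → ℕ, (∀ i, x i < N) ∧ p = z + T (WithLp.toLp 2 fun i => (x i : ℝ))) →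
      δ * (N : ℝ) ^ d ≤ P.card → 2 ≤ P.card → ∀ p ∈ P,
        c * (P.card : ℝ) ^ ((2 : ℝ) / d) ≤
          ({r : ℝ | ∃ q ∈ P, q ≠ p ∧ dist p q = r}.ncard : ℝ) := by
  classical
  obtain ⟨C, hC, hval⟩ := values hd
  refine ⟨δ ^ 2 / (2 * C), by positivity, fun N T z P hP hδN h2 p hp => ?_⟩
  choose! x hx hxe using hP
  have hd0 : 0 < d := by omega
  have hN : 1 ≤ N := Nat.succ_le_of_lt (lt_of_le_of_lt (Nat.zero_le _) (hx p hp ⟨0, hd0⟩))
  have hN' : (0 : ℝ) < N := by exact_mod_cast hN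
  let L : (Fin d → ℝ) →ₗ[ℝ] EuclideanSpace ℝ (Fin d) :=
    T.toLinearMap ∘ₗ (WithLp.linearEquiv 2 ℝ (Fin d → ℝ)).symm.toLinearMap
  have hLinj : Function.Injective L :=
    T.injective.comp (WithLp.linearEquiv 2 ℝ (Fin d → ℝ)).symm.injective
  let A : Matrix (Fin d) (Fin d) ℝ := fun i j => ⟪L (Pi.single i 1), L (Pi.single j 1)⟫
  have hL : ∀ y : Fin d → ℝ, L y = ∑ i, y i • L (Pi.single i 1) := fun y => by
    conv_lhs => rw [pi_eq_sum_univ' y]
    simp [map_sum]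
  have hq : ∀ y : Fin d → ℝ, y ⬝ᵥ A *ᵥ y = ‖L y‖ ^ 2 := fun y => by
    rw [← real_inner_self_eq_norm_sq]
    conv_rhs => rw [hL y]
    simp only [sum_inner, inner_sum, real_inner_smul_left, real_inner_smul_right, dotProduct,
      mulVec, mul_sum, A]
    rw [sum_comm]
    refine sum_congr rfl fun i _ => sum_congr rfl fun j _ => ?_
    ring
  have hsym : A.IsSymm := by
    ext i j
    exact real_inner_comm (L (Pi.single i 1)) (L (Pi.single j 1))
  have hinj : ∀ y, A *ᵥ y = 0 → y = 0 := fun y hy => by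
    have h := hq y
    rw [hy, dotProduct_zero] at h
    have h0 : L y = 0 := norm_eq_zero.1 (pow_eq_zero_iff two_ne_zero |>.1 h.symm)
    exact hLinj (h0.trans (map_zero L).symm)
  let f : EuclideanSpace ℝ (Fin d) → Fin d → ℤ := fun q i => (x q i : ℤ) - x p i
  have hf : ∀ q ∈ P, L (rv (f q)) = q - p := fun q hq' => by
    have e : rv (f q) = (fun i => (x q i : ℝ)) - fun i => (x p i : ℝ) := by
      funext i
      simp [rv, f]
    rw [e, map_sub]
    conv_rhs => rw [hxe q hq', hxe p hp]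
    simp [L]
  have hfi : Set.InjOn f P := fun q hq' q' hq'' h => by
    have := (hf q hq').symm.trans ((congrArg (fun t => L (rv t)) h).trans (hf q' hq''))
    exact sub_left_injective this
  have hbox : P.image f ⊆ box d N := by
    intro u hu
    obtain ⟨q, hq', rfl⟩ := mem_image.1 hu
    refine mem_box'.2 fun i => ?_
    have h1 := hx q hq' i
    have h2 := hx p hp i
    simp only [f]
    rw [abs_le]
    constructor <;> omega
  have key := hval N hN A hsym hinj _ hbox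
  rw [card_image_of_injOn hfi, image_image] at key
  set D : Finset ℝ := (P.erase p).image fun q => dist p q with hD
  have hDset : {r : ℝ | ∃ q ∈ P, q ≠ p ∧ dist p q = r} = (D : Set ℝ) := by
    ext r
    simp only [Set.mem_setOf_eq, hD, coe_image, Set.mem_image, mem_coe, mem_erase]
    exact ⟨fun ⟨q, h1, h2, h3⟩ => ⟨q, ⟨h2, h1⟩, h3⟩, fun ⟨q, ⟨h2, h1⟩, h3⟩ => ⟨q, h1, h2, h3⟩⟩
  rw [hDset, Set.ncard_coe_finset]
  have hD1 : 1 ≤ D.card := by
    refine (Nonempty.image ?_ _).card_pos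
    rw [← card_pos, card_erase_of_mem hp]
    omega
  have hsub : P.image ((fun u => rv u ⬝ᵥ A *ᵥ rv u) ∘ f) ⊆ insert 0 (D.image fun r => r ^ 2) := by
    intro s hs
    obtain ⟨q, hq', rfl⟩ := mem_image.1 hs
    simp only [Function.comp]
    rw [hq, hf q hq']
    by_cases h : q = p
    · simp [h]
    · refine mem_insert_of_mem (mem_image.2 ⟨dist p q, mem_image.2 ⟨q, mem_erase.2 ⟨h, hq'⟩, rfl⟩, ?_⟩)
      rw [dist_comm, dist_eq_norm]
  have hc1 : (P.image ((fun u => rv u ⬝ᵥ A *ᵥ rv u) ∘ f)).card ≤ 2 * D.card := by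
    have h1 := card_le_card hsub
    have h2 := card_insert_le (0 : ℝ) (D.image fun r => r ^ 2)
    have h3 : (D.image fun r => r ^ 2).card ≤ D.card := card_image_le
    omega
  have hc2 : ((P.image ((fun u => rv u ⬝ᵥ A *ᵥ rv u) ∘ f)).card : ℝ) ≤ 2 * D.card := by
    exact_mod_cast hc1
  -- the size of `P` is at most `N ^ d`
  have hPN : (P.card : ℝ) ≤ (N : ℝ) ^ d := by
    have : P.card ≤ (Fintype.piFinset fun _ : Fin d => range N).card := by
      refine card_le_card_of_injOn x (fun q hq' => ?_) fun q hq' q' hq'' h => ?_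
      · simpa [Fintype.mem_piFinset] using hx q hq'
      · rw [hxe q hq', hxe q' hq'', h]
    simp only [Fintype.card_piFinset, card_range, prod_const, card_univ, Fintype.card_fin] at this
    exact_mod_cast this
  have hd' : (0 : ℝ) < d := by exact_mod_cast hd0
  have hpow : (P.card : ℝ) ^ ((2 : ℝ) / d) ≤ (N : ℝ) ^ 2 := by
    refine (Real.rpow_le_rpow (Nat.cast_nonneg _) hPN (by positivity)).trans (le_of_eq ?_)
    rw [← Real.rpow_natCast, ← Real.rpow_mul hN'.le, mul_div_cancel₀ _ hd'.ne', Real.rpow_two]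
  have hsplit : ((N : ℝ) ^ d) ^ 2 = (N : ℝ) ^ (2 * d - 2) * (N : ℝ) ^ 2 := by
    rw [← pow_mul, ← pow_add]
    congr 1
    omega
  have hNp : (0 : ℝ) < (N : ℝ) ^ (2 * d - 2) := by positivity
  have h3 : δ ^ 2 * (N : ℝ) ^ 2 ≤ C * (2 * D.card) := by
    have h4 : (δ * (N : ℝ) ^ d) ^ 2 ≤ (P.card : ℝ) ^ 2 := by gcongr
    have h5 : C * (N : ℝ) ^ (2 * d - 2) *
        ((P.image ((fun u => rv u ⬝ᵥ A *ᵥ rv u) ∘ f)).card : ℝ) ≤
        C * (N : ℝ) ^ (2 * d - 2) * (2 * D.card) := by gcongr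
    refine le_of_mul_le_mul_left ?_ hNp
    rw [mul_pow, hsplit] at h4
    nlinarith
  rw [div_mul_eq_mul_div, div_le_iff₀ (by positivity)]
  have h6 : δ ^ 2 * (P.card : ℝ) ^ ((2 : ℝ) / d) ≤ δ ^ 2 * (N : ℝ) ^ 2 := by gcongr
  nlinarith

end Vale.Agent.Results.P054.GridImages
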